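import Mathlib

/-! P031: the counting function of totient values. -/

namespace Vale.Agent.P031

/-- `V x` is the number of distinct values `v ≤ x` of Euler's totient function on the positive
integers -/
noncomputable def V (x : ℝ) : ℝ :=
  ({v : ℕ | (v : ℝ) ≤ x ∧ ∃ n : ℕ, 1 ≤ n ∧ Nat.totient n = v}.ncard : ℝ)

end Vale.Agent.P031
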