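import Mathlib
import Vale.Agent.Lib.P031.Defs

/-! P031: elementary facts on the counting function of totient values. -/

namespace Vale.Agent.P031

open Filter

/-- totient values up to `x` -/
def vset (x : ℝ) : Set ℕ := {v : ℕ | (v : ℝ) ≤ x ∧ ∃ n : ℕ, 1 ≤ n ∧ Nat.totient n = v}

theorem V_eq (x : ℝ) : V x = ((vset x).ncard : ℝ) := rfl

theorem vset_sub (x : ℝ) (hx : 0 ≤ x) : vset x ⊆ (Finset.Icc 1 ⌊x⌋₊ : Finset ℕ) := by
  rintro v ⟨hv, n, hn, rfl⟩
  rw [Finset.coe_Icc, Set.mem_Icc]
  exact ⟨Nat.totient_pos.2 hn, (Nat.le_floor_iff hx).2 hv⟩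

theorem vset_finite (x : ℝ) : (vset x).Finite := by
  rcases le_or_gt 0 x with h | h
  · exact (Finset.finite_toSet _).subset (vset_sub x h)
  · have : vset x = ∅ := by
      ext v
      simp only [vset, Set.mem_setOf_eq, Set.mem_empty_iff_false, iff_false, not_and]
      intro hv
      have := Nat.cast_nonneg (α := ℝ) v
      linarith
    rw [this]
    exact Set.finite_empty

theorem V_mono : Monotone V := by
  intro x y hxy
  rw [V_eq, V_eq]
  have h : vset x ⊆ vset y := fun v hv => ⟨hv.1.trans hxy, hv.2⟩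
  exact_mod_cast Set.ncard_le_ncard h (vset_finite y)

theorem V_le {x : ℝ} (hx : 1 ≤ x) : V x ≤ x := by
  rw [V_eq]
  have h1 := Set.ncard_le_ncard (vset_sub x (by linarith)) (Finset.finite_toSet _)
  rw [Set.ncard_coe_finset, Nat.card_Icc, Nat.add_sub_cancel] at h1
  have h2 : ((vset x).ncard : ℝ) ≤ (⌊x⌋₊ : ℝ) := by exact_mod_cast h1
  exact h2.trans (Nat.floor_le (by linarith))

theorem V_pos {x : ℝ} (hx : 1 ≤ x) : 0 < V x := by
  rw [V_eq]
  have h : (vset x).Nonempty := ⟨1, by simpa using hx, 1, le_rfl, by simp⟩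
  exact_mod_cast (Set.ncard_pos (vset_finite x)).2 h

theorem V_ge_pi {x : ℝ} (hx : 0 ≤ x) : (Nat.primeCounting ⌊x⌋₊ : ℝ) ≤ V x := by
  rw [V_eq]
  have h1 : ((Finset.range (⌊x⌋₊ + 1)).filter Nat.Prime).image (fun p => p - 1) ⊆
      (vset_finite x).toFinset := by
    intro v hv
    rw [Finset.mem_image] at hv
    obtain ⟨p, hp, rfl⟩ := hv
    rw [Finset.mem_filter, Finset.mem_range] at hp
    rw [Set.Finite.mem_toFinset]
    refine ⟨?_, p, hp.2.one_le, Nat.totient_prime hp.2⟩
    have h2 : p ≤ ⌊x⌋₊ := by omega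
    have h3 : (p : ℝ) ≤ x := (Nat.le_floor_iff hx).1 h2
    have h4 : ((p - 1 : ℕ) : ℝ) ≤ (p : ℝ) := by exact_mod_cast Nat.sub_le p 1
    linarith
  have h2 := Finset.card_le_card h1
  rw [Finset.card_image_of_injOn] at h2
  · rw [← Set.ncard_eq_toFinset_card _ (vset_finite x)] at h2
    have h3 : Nat.primeCounting ⌊x⌋₊ =
        ((Finset.range (⌊x⌋₊ + 1)).filter Nat.Prime).card := by
      rw [Nat.primeCounting, Nat.primeCounting', Nat.count_eq_card_filter_range]
    rw [h3]
    exact_mod_cast h2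
  · intro p hp q hq h
    rw [Finset.coe_filter, Set.mem_setOf_eq] at hp hq
    have h1 := hp.2.one_le
    have h2 := hq.2.one_le
    simp only at h
    omega

theorem V_ge : ∃ a : ℝ, 0 < a ∧ ∀ x : ℝ, 2 ≤ x → a * x / Real.log x ≤ V x := by
  -- for `x ≥ 16` Chebyshev's bound, below that `V x ≥ 1`
  refine ⟨Real.log 2 / 16, by positivity, fun x hx => ?_⟩
  have hlog : 0 < Real.log x := Real.log_pos (by linarith)
  have hl2 : 0 < Real.log 2 := Real.log_pos (by norm_num)
  have hl2x : Real.log 2 ≤ Real.log x := Real.log_le_log (by norm_num) hx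
  rcases le_or_gt x 16 with h | h
  · have h1 : (1 : ℝ) ≤ V x := by
      have := V_pos (x := x) (by linarith)
      rw [V_eq] at this ⊢
      exact_mod_cast this
    refine le_trans ?_ h1
    rw [div_le_one hlog]
    have : Real.log 2 / 16 * x ≤ Real.log 2 / 16 * 16 :=
      mul_le_mul_of_nonneg_left h (by positivity)
    linarith
  · have h1 := Chebyshev.pi_ge' (x := x) (by linarith)
    refine le_trans ?_ (h1.trans (V_ge_pi (by linarith)))
    apply div_le_div_of_nonneg_right _ hlog.le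
    -- log (x + 2) ≤ log 2 * (x/2)
    have h2 : Real.log (x + 2) ≤ Real.log 2 * (x / 2) := by
      have e1 : x + 2 = 16 * ((x + 2) / 16) := by ring
      rw [e1, Real.log_mul (by norm_num) (by positivity)]
      have e2 : Real.log 16 = 4 * Real.log 2 := by
        rw [show (16 : ℝ) = 2 ^ 4 by norm_num, Real.log_pow]; norm_num
      have e3 := Real.log_le_sub_one_of_pos (show 0 < (x + 2) / 16 by positivity)
      have e4 := Real.log_two_gt_d9
      rw [e2]
      nlinarith
    have e4 := Real.log_two_gt_d9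
    nlinarith

end Vale.Agent.P031
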