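import Vale.Agent.Lib.P031.Defs

namespace Vale.Agent.P031
open Filter

theorem freq_gt (F : ℝ → ℝ) (hpos : ∀ x, 1 ≤ x → 0 < F x)
    (hge : ∃ a : ℝ, 0 < a ∧ ∀ x : ℝ, 2 ≤ x → a * x / Real.log x ≤ F x) {c ε : ℝ} (hc : 1 < c)
    (hε : 0 < ε) : ∃ᶠ x in atTop, c - ε < F (c * x) / F x := by
  by_contra hcon
  rw [Filter.not_frequently] at hcon
  obtain ⟨a, ha, hF⟩ := hge
  obtain ⟨x1, hx1⟩ := Filter.eventually_atTop.1 hcon
  obtain ⟨x0, h1, h2⟩ : ∃ x0, x1 ≤ x0 ∧ 2 ≤ x0 := ⟨max x1 2, le_max_left _ _, le_max_right _ _⟩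
  have hstep : ∀ x, x0 ≤ x → F (c * x) ≤ (c - ε) * F x := by
    intro x hx
    have h3 := not_lt.1 (hx1 x (h1.trans hx))
    rwa [div_le_iff₀ (hpos x (by linarith))] at h3
  have hc0 : 0 < c := by linarith
  have hq : 0 < c - ε := by
    have h3 := hstep x0 le_rfl
    have h4 := hpos (c * x0) (by nlinarith)
    have h5 := hpos x0 (by linarith)
    by_contra h6
    push Not at h6
    have h7 : 0 ≤ -(c - ε) * F x0 := mul_nonneg (by linarith) h5.le
    linarith
  have hge1 : ∀ k : ℕ, x0 ≤ c ^ k * x0 := fun k => by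
    have h3 : 1 ≤ c ^ k := one_le_pow₀ hc.le
    have h4 : 0 ≤ (c ^ k - 1) * x0 := mul_nonneg (by linarith) (by linarith)
    linarith
  have hk : ∀ k : ℕ, F (c ^ k * x0) ≤ (c - ε) ^ k * F x0 := by
    intro k
    induction k with
    | zero => simp
    | succ k ih =>
      have h3 := hstep (c ^ k * x0) (hge1 k)
      have e : c ^ (k + 1) * x0 = c * (c ^ k * x0) := by ring
      rw [e]
      calc F (c * (c ^ k * x0)) ≤ (c - ε) * F (c ^ k * x0) := h3
        _ ≤ (c - ε) * ((c - ε) ^ k * F x0) := mul_le_mul_of_nonneg_left ih hq.le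
        _ = (c - ε) ^ (k + 1) * F x0 := by ring
  obtain ⟨r, hr⟩ : ∃ r, r = (c - ε) / c := ⟨_, rfl⟩
  have hr0 : 0 ≤ r := by rw [hr]; exact div_nonneg hq.le hc0.le
  have hr1 : r < 1 := by rw [hr, div_lt_one hc0]; linarith
  have hbd : ∀ k : ℕ, a * x0 ≤ F x0 * (Real.log c * ((k : ℝ) * r ^ k) + Real.log x0 * r ^ k) := by
    intro k
    have h3 := (hF (c ^ k * x0) (h2.trans (hge1 k))).trans (hk k)
    have hlog : Real.log (c ^ k * x0) = k * Real.log c + Real.log x0 := by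
      rw [Real.log_mul (pow_pos hc0 k).ne' (by linarith), Real.log_pow]
    have hlpos : 0 < Real.log (c ^ k * x0) := Real.log_pos (by linarith [hge1 k])
    rw [div_le_iff₀ hlpos, hlog] at h3
    have hck : 0 < c ^ k := pow_pos hc0 k
    have e : r ^ k = (c - ε) ^ k / c ^ k := by rw [hr, div_pow]
    rw [e]
    have e2 : F x0 * (Real.log c * ((k : ℝ) * ((c - ε) ^ k / c ^ k)) +
        Real.log x0 * ((c - ε) ^ k / c ^ k)) =
        ((c - ε) ^ k * F x0 * (k * Real.log c + Real.log x0)) / c ^ k := by ring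
    rw [e2, le_div_iff₀ hck]
    linarith
  have hlim : Tendsto (fun k : ℕ => F x0 * (Real.log c * ((k : ℝ) * r ^ k) +
      Real.log x0 * r ^ k)) atTop (nhds 0) := by
    have t1 := tendsto_self_mul_const_pow_of_lt_one hr0 hr1
    have t2 := tendsto_pow_atTop_nhds_zero_of_lt_one hr0 hr1
    have t3 := ((t1.const_mul (Real.log c)).add (t2.const_mul (Real.log x0))).const_mul (F x0)
    simpa using t3
  have h3 := ge_of_tendsto' hlim hbd
  have h4 : 0 < a * x0 := mul_pos ha (by linarith)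
  linarith

end Vale.Agent.P031
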