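import Vale.Agent.Lib.P031.Defs

/-! P031: ratios of a monotone function of index one. -/

namespace Vale.Agent.P031
open Filter Topology

/-- the ratio is often at most `c + ε` -/
theorem freq_lt (F : ℝ → ℝ) (hpos : ∀ x, 1 ≤ x → 0 < F x) (hle : ∀ x, 1 ≤ x → F x ≤ x)
    {c ε : ℝ} (hc : 1 < c) (hε : 0 < ε) : ∃ᶠ x in atTop, F (c * x) / F x < c + ε := by
  by_contra hcon
  rw [not_frequently] at hcon
  obtain ⟨x₁, hx₁⟩ := eventually_atTop.1 hcon
  set x₀ := max x₁ 1 with hx₀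
  have h1 : (1 : ℝ) ≤ x₀ := le_max_right _ _
  have hc0 : 0 < c := by linarith
  have hpow : ∀ k : ℕ, x₀ ≤ c ^ k * x₀ := fun k =>
    le_mul_of_one_le_left (by linarith) (one_le_pow₀ hc.le)
  have hstep : ∀ k : ℕ, (c + ε) ^ k * F x₀ ≤ F (c ^ k * x₀) := by
    intro k
    induction k with
    | zero => simp
    | succ k ih =>
      have h2 := hx₁ (c ^ k * x₀) ((le_max_left _ _).trans (hpow k))
      have h3 : 0 < F (c ^ k * x₀) := hpos _ (h1.trans (hpow k))
      rw [not_lt, le_div_iff₀ h3] at h2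
      calc (c + ε) ^ (k + 1) * F x₀ = (c + ε) * ((c + ε) ^ k * F x₀) := by ring
        _ ≤ (c + ε) * F (c ^ k * x₀) := mul_le_mul_of_nonneg_left ih (by linarith)
        _ ≤ F (c * (c ^ k * x₀)) := h2
        _ = F (c ^ (k + 1) * x₀) := by ring_nf
  have hr : 1 < (c + ε) / c := by
    rw [lt_div_iff₀ hc0]
    linarith
  obtain ⟨k, hk⟩ := pow_unbounded_of_one_lt (x₀ / F x₀) hr
  have hF := hpos x₀ h1
  have h4 := (hstep k).trans (hle _ (h1.trans (hpow k)))
  rw [div_pow, div_lt_div_iff₀ hF (pow_pos hc0 k)] at hk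
  linarith

/-- the numbers `c > 0` for which the ratio tends to `c` -/
def G (F : ℝ → ℝ) : Set ℝ := {c | 0 < c ∧ Tendsto (fun x => F (c * x) / F x) atTop (𝓝 c)}

theorem G_mul {F : ℝ → ℝ} (hpos : ∀ x, 1 ≤ x → 0 < F x) {c d : ℝ} (hc : c ∈ G F) (hd : d ∈ G F) :
    c * d ∈ G F := by
  refine ⟨mul_pos hc.1 hd.1, ?_⟩
  have h1 : Tendsto (fun x => F (c * (d * x)) / F (d * x)) atTop (𝓝 c) :=
    hc.2.comp (tendsto_id.const_mul_atTop hd.1)
  have h2 := h1.mul hd.2
  refine h2.congr' ?_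
  have h3 : ∀ᶠ x : ℝ in atTop, 1 ≤ d * x :=
    (tendsto_id.const_mul_atTop hd.1).eventually_ge_atTop 1
  filter_upwards [h3] with x hx
  have := (hpos _ hx).ne'
  rw [mul_assoc]
  field_simp

theorem G_inv {F : ℝ → ℝ} {c : ℝ} (hc : c ∈ G F) : c⁻¹ ∈ G F := by
  refine ⟨inv_pos.2 hc.1, ?_⟩
  have h1 : Tendsto (fun x => F (c * (c⁻¹ * x)) / F (c⁻¹ * x)) atTop (𝓝 c) :=
    hc.2.comp (tendsto_id.const_mul_atTop (inv_pos.2 hc.1))
  have h2 := h1.inv₀ hc.1.ne'
  refine h2.congr fun x => ?_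
  rw [inv_div, mul_inv_cancel_left₀ hc.1.ne']

theorem G_one {F : ℝ → ℝ} (hpos : ∀ x, 1 ≤ x → 0 < F x) : (1 : ℝ) ∈ G F := by
  refine ⟨one_pos, ?_⟩
  refine tendsto_const_nhds.congr' ?_
  filter_upwards [eventually_ge_atTop (1 : ℝ)] with x hx
  rw [one_mul, div_self (hpos x hx).ne']

/-- the logarithms of `G` form a subgroup -/
def LG (F : ℝ → ℝ) (hpos : ∀ x, 1 ≤ x → 0 < F x) : AddSubgroup ℝ where
  carrier := {t | Real.exp t ∈ G F}
  zero_mem' := by
    show Real.exp 0 ∈ G F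
    rw [Real.exp_zero]
    exact G_one hpos
  add_mem' := by
    intro a b ha hb
    show Real.exp (a + b) ∈ G F
    rw [Real.exp_add]
    exact G_mul hpos ha hb
  neg_mem' := by
    intro a ha
    show Real.exp (-a) ∈ G F
    rw [Real.exp_neg]
    exact G_inv ha

theorem G_all_of_dense {F : ℝ → ℝ} (hmono : Monotone F) (hpos : ∀ x, 1 ≤ x → 0 < F x)
    (hd : Dense (LG F hpos : Set ℝ)) {c : ℝ}
    (hc : 0 < c) : Tendsto (fun x => F (c * x) / F x) atTop (𝓝 c) := by
  have hdense : ∀ a b : ℝ, 0 < a → a < b → ∃ g ∈ G F, a < g ∧ g < b := by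
    intro a b ha hab
    obtain ⟨t, ht, h1, h2⟩ := hd.exists_between (Real.log_lt_log ha hab)
    refine ⟨Real.exp t, ht, ?_, ?_⟩
    · rw [← Real.log_lt_iff_lt_exp ha]
      exact h1
    · rw [← Real.lt_log_iff_exp_lt (ha.trans hab)]
      exact h2
  rw [tendsto_order]
  constructor
  · intro a ha
    obtain ⟨g, hg, h1, h2⟩ := hdense (max a (c / 2)) c
      (lt_of_lt_of_le (by positivity) (le_max_right _ _)) (max_lt ha (by linarith))
    have h3 := (tendsto_order.1 hg.2).1 a ((le_max_left _ _).trans_lt h1)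
    filter_upwards [h3, eventually_ge_atTop (1 : ℝ)] with x hx hx1
    refine hx.trans_le ?_
    have := hpos x hx1
    exact div_le_div_of_nonneg_right (hmono (mul_le_mul_of_nonneg_right h2.le (by linarith)))
      this.le
  · intro b hb
    obtain ⟨g, hg, h1, h2⟩ := hdense c b hc hb
    have h3 := (tendsto_order.1 hg.2).2 b h2
    filter_upwards [h3, eventually_ge_atTop (1 : ℝ)] with x hx hx1
    refine lt_of_le_of_lt ?_ hx
    have := hpos x hx1
    exact div_le_div_of_nonneg_right (hmono (mul_le_mul_of_nonneg_right h1.le (by linarith)))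
      this.le

theorem G_all {F : ℝ → ℝ} (hmono : Monotone F) (hpos : ∀ x, 1 ≤ x → 0 < F x) {c₁ c₂ : ℝ}
    (h₁ : c₁ ∈ G F) (h₂ : c₂ ∈ G F) (hirr : Irrational (Real.log c₁ / Real.log c₂)) {c : ℝ}
    (hc : 0 < c) : Tendsto (fun x => F (c * x) / F x) atTop (𝓝 c) := by
  refine G_all_of_dense hmono hpos ?_ hc
  refine (dense_addSubgroupClosure_pair_iff.2 hirr).mono ?_
  have : AddSubgroup.closure {Real.log c₁, Real.log c₂} ≤ LG F hpos := by
    rw [AddSubgroup.closure_le]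
    intro t ht
    rcases ht with rfl | rfl
    · show Real.exp _ ∈ G F
      rw [Real.exp_log h₁.1]
      exact h₁
    · show Real.exp _ ∈ G F
      rw [Real.exp_log h₂.1]
      exact h₂
  exact this

/-- either the ratios tend to the right limit for all `c`, or the good `c` lie in one geometric
progression -/
theorem G_dich {F : ℝ → ℝ} (hmono : Monotone F) (hpos : ∀ x, 1 ≤ x → 0 < F x) :
    (∀ c : ℝ, 0 < c → Tendsto (fun x => F (c * x) / F x) atTop (𝓝 c)) ∨
      ∃ g : ℝ, 0 < g ∧ ∀ c ∈ G F, ∃ k : ℤ, c = g ^ k := by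
  rcases (LG F hpos).dense_or_cyclic with hd | ⟨a, ha⟩
  · left
    intro c hc
    exact G_all_of_dense hmono hpos hd hc
  · right
    refine ⟨Real.exp a, Real.exp_pos a, fun c hc => ?_⟩
    have h1 : Real.log c ∈ LG F hpos := by
      show Real.exp (Real.log c) ∈ G F
      rw [Real.exp_log hc.1]
      exact hc
    rw [ha, AddSubgroup.mem_closure_singleton] at h1
    obtain ⟨k, hk⟩ := h1
    refine ⟨k, ?_⟩
    rw [← Real.exp_log hc.1, ← hk, zsmul_eq_mul, ← Real.rpow_intCast, ← Real.exp_mul, mul_comm]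

end Vale.Agent.P031
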