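import Vale.Agent.Lib.P031.A
import Vale.Agent.Lib.P031.B
import Vale.Agent.Lib.P031.C

/-! P031: two ratios decide all. -/

namespace Vale.Agent.P031
open Filter Topology

theorem irr_log : Irrational (Real.log 2 / Real.log 3) := by
  rintro ⟨r, hr⟩
  have h3 : 0 < Real.log 3 := Real.log_pos (by norm_num)
  have h2 : 0 < Real.log 2 := Real.log_pos (by norm_num)
  have hr0 : 0 < r := by
    have : (0 : ℝ) < (r : ℝ) := by
      rw [hr]
      exact div_pos h2 h3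
    exact_mod_cast this
  have hnum : 0 < r.num := Rat.num_pos.2 hr0
  obtain ⟨p, hp⟩ := Int.eq_ofNat_of_zero_le hnum.le
  have hden : 0 < r.den := r.den_pos
  have e1 : (r : ℝ) = (p : ℝ) / (r.den : ℝ) := by
    have : (r : ℝ) = (r.num : ℝ) / (r.den : ℝ) := by exact_mod_cast (Rat.num_div_den r).symm
    rw [this, hp]
    simp
  have hdR : (0 : ℝ) < r.den := by exact_mod_cast hden
  have e2 : (r.den : ℝ) * Real.log 2 = p * Real.log 3 := by
    rw [e1, div_eq_div_iff hdR.ne' h3.ne'] at hr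
    linarith
  have e3 : (2 : ℝ) ^ r.den = 3 ^ p := by
    apply Real.log_injOn_pos (Set.mem_Ioi.2 (by positivity)) (Set.mem_Ioi.2 (by positivity))
    rw [Real.log_pow, Real.log_pow, e2]
  have e4 : 2 ^ r.den = 3 ^ p := by exact_mod_cast e3
  have h5 : Even (2 ^ r.den) := (Nat.even_pow.2 ⟨even_two, hden.ne'⟩)
  have h6 : Odd (3 ^ p) := Odd.pow (by decide)
  rw [e4] at h5
  exact (Nat.not_even_iff_odd.2 h6) h5

theorem V_freq_lt {c ε : ℝ} (hc : 1 < c) (hε : 0 < ε) :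
    ∃ᶠ x in atTop, V (c * x) / V x < c + ε :=
  freq_lt V (fun _ hx => V_pos hx) (fun _ hx => V_le hx) hc hε

theorem V_freq_gt {c ε : ℝ} (hc : 1 < c) (hε : 0 < ε) :
    ∃ᶠ x in atTop, c - ε < V (c * x) / V x :=
  freq_gt V (fun _ hx => V_pos hx) V_ge hc hε

theorem V_lim {c L : ℝ} (hc : 1 < c) (h : Tendsto (fun x => V (c * x) / V x) atTop (𝓝 L)) :
    L = c := by
  apply le_antisymm
  · by_contra hlt
    rw [not_le] at hlt
    have h1 := (tendsto_order.1 h).1 ((L + c) / 2) (by linarith)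
    have h2 := V_freq_lt hc (show 0 < (L - c) / 2 by linarith)
    obtain ⟨x, hx1, hx2⟩ := (h2.and_eventually h1).exists
    linarith
  · by_contra hlt
    rw [not_le] at hlt
    have h1 := (tendsto_order.1 h).2 ((L + c) / 2) (by linarith)
    have h2 := V_freq_gt hc (show 0 < (c - L) / 2 by linarith)
    obtain ⟨x, hx1, hx2⟩ := (h2.and_eventually h1).exists
    linarith

theorem V_two {c₁ c₂ L₁ L₂ : ℝ} (h₁ : 1 < c₁) (h₂ : 1 < c₂)
    (hirr : Irrational (Real.log c₁ / Real.log c₂))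
    (t₁ : Tendsto (fun x => V (c₁ * x) / V x) atTop (𝓝 L₁))
    (t₂ : Tendsto (fun x => V (c₂ * x) / V x) atTop (𝓝 L₂)) {c : ℝ} (hc : 0 < c) :
    Tendsto (fun x => V (c * x) / V x) atTop (𝓝 c) := by
  have e₁ := V_lim h₁ t₁
  have e₂ := V_lim h₂ t₂
  subst e₁ e₂
  exact G_all V_mono (fun _ hx => V_pos hx) ⟨by linarith, t₁⟩ ⟨by linarith, t₂⟩ hirr hc

theorem V_dich : (∀ c : ℝ, 0 < c → Tendsto (fun x => V (c * x) / V x) atTop (𝓝 c)) ∨
    ∃ g : ℝ, 0 < g ∧ ∀ c L : ℝ, 1 < c → Tendsto (fun x => V (c * x) / V x) atTop (𝓝 L) →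
      ∃ k : ℤ, c = g ^ k := by
  rcases G_dich V_mono (fun _ hx => V_pos hx) with h | ⟨g, hg, h⟩
  · exact Or.inl h
  · refine Or.inr ⟨g, hg, fun c L hc ht => h c ⟨by linarith, ?_⟩⟩
    have e := V_lim hc ht
    subst e
    exact ht

end Vale.Agent.P031
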